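import Vale.Agent.Lib.P064.Assemble

/-!
# P064: the second Kahn–Kalai conjecture, for Mathlib's binomial random graph `G(Fin n, p)`
-/

namespace Vale.Agent.Results.P064.BinomialRandomGraph

open Vale.Agent.P064 MeasureTheory SimpleGraph unitInterval

private theorem real_singleton (n : ℕ) (p : I) (G : SimpleGraph (Fin n)) :
    G(Fin n, p).real {G} = gw n p G := by
  rw [measureReal_def, binomialRandom_singleton]
  unfold gw
  rw [Nat.card_eq_fintype_card, Fintype.card_fin, ← Nat.card_coe_set_eq, ENNReal.toReal_mul,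
    ENNReal.toReal_pow, ENNReal.toReal_pow]
  rfl

private theorem msc (n : ℕ) : MeasurableSingletonClass (SimpleGraph (Fin n)) := ⟨fun G => by
  have h : ({G} : Set (SimpleGraph (Fin n))) = SimpleGraph.edgeSet ⁻¹' {G.edgeSet} := by
    ext G'
    simp only [Set.mem_singleton_iff, Set.mem_preimage]
    exact SimpleGraph.edgeSet_inj.symm
  rw [h]
  exact measurableEmbedding_edgeSet.measurable (measurableSet_singleton _)⟩

private theorem integral_eq (n : ℕ) (p : I) (f : SimpleGraph (Fin n) → ℝ) :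
    ∫ G, f G ∂G(Fin n, p) = ∑ G : SimpleGraph (Fin n), gw n p G * f G := by
  have := msc n
  rw [integral_fintype]
  · exact Finset.sum_congr rfl fun G _ => by rw [real_singleton, smul_eq_mul]
  · exact Integrable.of_finite

private theorem real_set (n : ℕ) (p : I) {V : Type} (H : SimpleGraph V) :
    G(Fin n, p).real {G | 0 < G.copyCount H} = probCopy n p H := by
  classical
  have := msc n
  have hm : MeasurableSet {G : SimpleGraph (Fin n) | 0 < G.copyCount H} :=
    (Set.toFinite _).measurableSet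
  have h1 := integral_indicator_one (μ := G(Fin n, p)) hm
  rw [← h1, integral_eq]
  unfold probCopy
  refine Finset.sum_congr rfl fun G _ => ?_
  by_cases h : 0 < G.copyCount H
  · rw [if_pos h, Set.indicator_of_mem (by exact h), Pi.one_apply, mul_one]
  · rw [if_neg h, Set.indicator_of_notMem (by exact h), mul_zero]

private theorem exp_eq (n : ℕ) (p : I) {V : Type} (F : SimpleGraph V) :
    ∫ G, (G.copyCount F : ℝ) ∂G(Fin n, p) = expCopy n p F := by
  rw [integral_eq]
  rfl

/-- **The second Kahn–Kalai conjecture.**  There is a universal constant `C` such that for all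
`n ≥ 2` and all graphs `H` with at least one edge and at most `n` vertices the minima
`p_c(n,H) = min {p ∈ [0,1] : Pr (N(G(n,p),H) > 0) ≥ 1/2}` and
`p_E(n,H) = min {p ∈ [0,1] : E N(G(n,p),F) ≥ 1/2 for every subgraph F of H}` exist and
`p_c(n,H) ≤ C p_E(n,H) log n`.  Here `G(Fin n, p)` is Mathlib's binomial random graph,
`p` ranges over the unit interval `I`, and `G.copyCount F` is the number of subgraphs of `G`
isomorphic to `F`. -/
theorem result : ∃ C : ℝ, ∀ n : ℕ, 2 ≤ n → ∀ (V : Type) [Finite V] (H : SimpleGraph V),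
    H.edgeSet.Nonempty → Nat.card V ≤ n →
      ∃ pc pE : I,
        IsLeast {p : I | 1 / 2 ≤ G(Fin n, p).real {G | 0 < G.copyCount H}} pc ∧
        IsLeast {p : I | ∀ F : H.Subgraph, 1 / 2 ≤ ∫ G, (G.copyCount F.coe : ℝ) ∂G(Fin n, p)} pE ∧
        (pc : ℝ) ≤ C * pE * Real.log n := by
  refine ⟨finC, fun n hn V _ H hH hV => ?_⟩
  have := Fintype.ofFinite V
  rw [Nat.card_eq_fintype_card] at hV
  have h1 : IsLeast (pcSet n H) (pc n H) := isLeast_pc H hV
  have h2 : IsLeast (pESet n H) (pE n H) := isLeast_pE H hV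
  have e1 : ∀ p : I, 1 / 2 ≤ G(Fin n, p).real {G | 0 < G.copyCount H} ↔ (p : ℝ) ∈ pcSet n H := by
    intro p
    rw [real_set]
    exact ⟨fun h => ⟨p.2.1, p.2.2, h⟩, fun h => h.2.2⟩
  have e2 : ∀ p : I, (∀ F : H.Subgraph, 1 / 2 ≤ ∫ G, (G.copyCount F.coe : ℝ) ∂G(Fin n, p)) ↔
      (p : ℝ) ∈ pESet n H := by
    intro p
    simp only [exp_eq]
    exact ⟨fun h => ⟨p.2.1, p.2.2, h⟩, fun h => h.2.2⟩
  refine ⟨⟨pc n H, h1.1.1, h1.1.2.1⟩, ⟨pE n H, h2.1.1, h2.1.2.1⟩, ⟨?_, ?_⟩, ⟨?_, ?_⟩,
    second_kahn_kalai n hn V H hV hH⟩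
  · exact (e1 _).mpr h1.1
  · intro p hp
    exact h1.2 ((e1 p).mp hp)
  · exact (e2 _).mpr h2.1
  · intro p hp
    exact h2.2 ((e2 p).mp hp)

end Vale.Agent.Results.P064.BinomialRandomGraph
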