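import Vale.Agent.Lib.P064.Assemble

/-!
# P064: the second Kahn–Kalai conjecture

There is a universal constant `C` such that `p_c(n,H) ≤ C p_E(n,H) log n` for every `n ≥ 2` and
every graph `H` with at least one edge and at most `n` vertices.
-/

namespace Vale.Agent.Results.P064.SecondKahnKalai

open Vale.Agent.P064

/-- **The second Kahn–Kalai conjecture.** Both thresholds are attained minima and
`p_c(n,H) ≤ C p_E(n,H) log n` with a universal constant `C`. -/
theorem result : ∃ C : ℝ, 0 < C ∧
    ∀ n : ℕ, 2 ≤ n → ∀ (V : Type) [Fintype V] (H : SimpleGraph V),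
      Fintype.card V ≤ n → H.edgeSet.Nonempty →
        IsLeast (pcSet n H) (pc n H) ∧ IsLeast (pESet n H) (pE n H) ∧
          pc n H ≤ C * pE n H * Real.log n := by
  refine ⟨finC, finC_pos, ?_⟩
  intro n hn V _ H hV hH
  exact ⟨isLeast_pc H hV, isLeast_pE H hV, second_kahn_kalai n hn V H hV hH⟩

end Vale.Agent.Results.P064.SecondKahnKalai
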