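import Vale.Agent.Lib.P064.Tilde

/-!
# P064: the second Kahn–Kalai conjecture together with the modified expectation threshold
-/

namespace Vale.Agent.Results.P064.WithModifiedThreshold

open Vale.Agent.P064

/-- There is a universal constant `C` with `p̃_E(n,H) ≤ C p_E(n,H)` and
`p_c(n,H) ≤ C p_E(n,H) log n` for all `n ≥ 2` and all graphs `H` with at least one edge and at
most `n` vertices. -/
theorem result : ∃ C : ℝ, 0 < C ∧
    ∀ n : ℕ, 2 ≤ n → ∀ (V : Type) [Fintype V] (H : SimpleGraph V),
      Fintype.card V ≤ n → H.edgeSet.Nonempty →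
        IsLeast (pcSet n H) (pc n H) ∧ IsLeast (pESet n H) (pE n H) ∧
          IsLeast (ptSet n H) (pt n H) ∧
          pt n H ≤ C * pE n H ∧ pc n H ≤ C * pE n H * Real.log n := by
  refine ⟨finC, finC_pos, ?_⟩
  intro n hn V _ H hV hH
  refine ⟨isLeast_pc H hV, isLeast_pE H hV, isLeast_pt H hV hH, ?_,
    second_kahn_kalai n hn V H hV hH⟩
  refine (pt_le H hV hH).trans ?_
  refine mul_le_mul_of_nonneg_right ?_ (pE_pos H hV hH).le
  have := bigC_pos
  unfold finC
  linarith

end Vale.Agent.Results.P064.WithModifiedThreshold
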